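import Mathlib

/-!
# P192: algebras over the field with two elements given by binomial and monomial relations
-/

namespace Vale.Agent.P192Z

/-- The field with two elements. -/
abbrev F2 : Type := ZMod 2

/-- The free algebra on `X`, as the monoid algebra of the free monoid. -/
abbrev FA (X : Type) : Type := MonoidAlgebra F2 (FreeMonoid X)

/-- Relations `u = v` and `z = 0` between words. -/
structure Pres (X : Type) where
  eqs : Set (List X × List X)
  zeros : Set (List X)

variable {X : Type}

/-- The monomial of a word. -/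
noncomputable def mono (w : List X) : FA X :=
  MonoidAlgebra.of F2 (FreeMonoid X) (FreeMonoid.ofList w)

theorem mono_nil : mono ([] : List X) = 1 := by
  unfold mono; rw [FreeMonoid.ofList_nil, map_one]

theorem mono_append (u v : List X) : mono (u ++ v) = mono u * mono v := by
  unfold mono; rw [FreeMonoid.ofList_append, map_mul]

theorem FA.induction {p : FA X → Prop} (h0 : p 0) (hw : ∀ w, p (mono w))
    (hadd : ∀ a b, p a → p b → p (a + b)) (a : FA X) : p a := by
  induction a using MonoidAlgebra.induction_on with
  | of m => exact hw (FreeMonoid.toList m)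
  | add f g hf hg => exact hadd f g hf hg
  | smul r f hf =>
    have : r = 0 ∨ r = 1 := by revert r; decide
    rcases this with rfl | rfl
    · simpa using h0
    · simpa using hf

/-- The defining relation on the free algebra. -/
inductive Pres.Rel (P : Pres X) : FA X → FA X → Prop
  | eq {u v : List X} : (u, v) ∈ P.eqs → Pres.Rel P (mono u) (mono v)
  | zero {z : List X} : z ∈ P.zeros → Pres.Rel P (mono z) 0

/-- The algebra given by the relations `P`. -/
abbrev Alg (P : Pres X) : Type := RingQuot P.Rel

namespace Pres

variable (P : Pres X)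

/-- The image of a word. -/
noncomputable def word (w : List X) : Alg P := RingQuot.mkAlgHom F2 P.Rel (mono w)

/-- Homogeneous relations of positive degree. -/
def Homog : Prop :=
  (∀ u v, (u, v) ∈ P.eqs → u.length = v.length ∧ u ≠ []) ∧ ∀ z ∈ P.zeros, z ≠ []

/-- Functions on words that respect the relations in every context. -/
def Inv {V : Type*} [Zero V] (f : List X → V) : Prop :=
  (∀ a b u v, (u, v) ∈ P.eqs → f (a ++ u ++ b) = f (a ++ v ++ b)) ∧
    ∀ a b z, z ∈ P.zeros → f (a ++ z ++ b) = 0

/-- There are long nonzero words. -/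
def INF : Prop :=
  ∀ N : ℕ, ∃ (w : List X) (lam : List X → F2), P.Inv lam ∧ N ≤ w.length ∧ lam w = 1

/-- Every linear matrix pencil over polynomials is nilpotent (dual form). -/
def NIL [Fintype X] : Prop :=
  ∀ (ι : Type) [Fintype ι] [DecidableEq ι] (ρ : X → Matrix ι ι (Polynomial F2)),
    ∃ N : ℕ, ∀ lam : List X → F2, P.Inv lam →
      ∑ w : Fin N → X, lam (List.ofFn w) • (List.ofFn (ρ ∘ w)).prod = 0

theorem word_nil : P.word [] = 1 := by unfold word; rw [mono_nil, map_one]

theorem word_append (u v : List X) : P.word (u ++ v) = P.word u * P.word v := by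
  unfold word; rw [mono_append, map_mul]

theorem word_cons (x : X) (v : List X) : P.word (x :: v) = P.word [x] * P.word v :=
  P.word_append [x] v

theorem word_eq_prod (w : List X) : P.word w = (w.map fun x => P.word [x]).prod := by
  induction w with
  | nil => simp [word_nil]
  | cons x w ih => rw [word_cons, ih]; simp

theorem word_eq {u v : List X} (h : (u, v) ∈ P.eqs) : P.word u = P.word v :=
  RingQuot.mkAlgHom_rel F2 (Pres.Rel.eq h)

theorem word_zero {z : List X} (h : z ∈ P.zeros) : P.word z = 0 := by
  have := RingQuot.mkAlgHom_rel F2 (Pres.Rel.zero (P := P) h)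
  rw [map_zero] at this
  exact this

theorem induction {p : Alg P → Prop} (h0 : p 0) (hw : ∀ w, p (P.word w))
    (hadd : ∀ a b, p a → p b → p (a + b)) (a : Alg P) : p a := by
  obtain ⟨a, rfl⟩ := RingQuot.mkAlgHom_surjective F2 P.Rel a
  induction a using FA.induction with
  | h0 => simpa using h0
  | hw w => exact hw w
  | hadd a b ha hb => rw [map_add]; exact hadd _ _ ha hb

theorem inv_word : P.Inv P.word := by
  refine ⟨fun a b u v h => ?_, fun a b z h => ?_⟩
  · simp only [word_append, P.word_eq h]
  · simp only [word_append, P.word_zero h, mul_zero, zero_mul]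

theorem Inv.shift {P : Pres X} {V : Type*} [Zero V] {f : List X → V} (hf : P.Inv f)
    (c d : List X) : P.Inv fun w => f (c ++ w ++ d) := by
  refine ⟨fun a b u v h => ?_, fun a b z h => ?_⟩
  · have := hf.1 (c ++ a) (b ++ d) u v h
    simpa only [List.append_assoc] using this
  · have := hf.2 (c ++ a) (b ++ d) z h
    simpa only [List.append_assoc] using this

theorem Inv.comp {P : Pres X} {V W : Type*} [Zero V] [Zero W] {f : List X → V} (hf : P.Inv f)
    (g : V → W) (hg : g 0 = 0) : P.Inv fun w => g (f w) :=
  ⟨fun a b u v h => by simp only [hf.1 a b u v h], fun a b z h => by simp only [hf.2 a b z h, hg]⟩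

/-- Universal property for algebra maps. -/
theorem exists_algHom {B : Type*} [Ring B] [Algebra F2 B] (g : X → B)
    (h1 : ∀ u v, (u, v) ∈ P.eqs → (u.map g).prod = (v.map g).prod)
    (h2 : ∀ z ∈ P.zeros, (z.map g).prod = 0) :
    ∃ φ : Alg P →ₐ[F2] B, ∀ w, φ (P.word w) = (w.map g).prod := by
  let f : FA X →ₐ[F2] B := MonoidAlgebra.lift F2 B (FreeMonoid X) (FreeMonoid.lift g)
  have hf : ∀ w, f (mono w) = (w.map g).prod := by
    intro w
    simp [f, mono, FreeMonoid.lift_apply]
  refine ⟨RingQuot.liftAlgHom F2 ⟨f, ?_⟩, fun w => ?_⟩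
  · intro x y h
    cases h with
    | eq h => rw [hf, hf, h1 _ _ h]
    | zero h => rw [hf, h2 _ h, map_zero]
  · unfold word
    rw [RingQuot.liftAlgHom_mkAlgHom_apply, hf]

/-- Universal property for linear maps: an invariant function on words extends linearly. -/
theorem exists_lin {V : Type*} [AddCommGroup V] [Module F2 V] (f : List X → V) (hf : P.Inv f) :
    ∃ F : Alg P →ₗ[F2] V, ∀ w, F (P.word w) = f w := by
  let W : Submodule F2 (List X → V) :=
    { carrier := {g | P.Inv g}
      add_mem' := fun {g h} hg hh =>
        ⟨fun a b u v e => by simp only [Pi.add_apply, hg.1 a b u v e, hh.1 a b u v e],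
         fun a b z e => by simp only [Pi.add_apply, hg.2 a b z e, hh.2 a b z e, add_zero]⟩
      zero_mem' := ⟨fun _ _ _ _ _ => rfl, fun _ _ _ _ => rfl⟩
      smul_mem' := fun c g hg =>
        ⟨fun a b u v e => by simp only [Pi.smul_apply, hg.1 a b u v e],
         fun a b z e => by simp only [Pi.smul_apply, hg.2 a b z e, smul_zero]⟩ }
  let T : X → Module.End F2 W := fun x =>
    { toFun := fun g => ⟨fun w => g.1 (w ++ [x]), by
        have := Inv.shift (P := P) g.2 [] [x]
        show P.Inv (fun w => g.1 (w ++ [x]))
        simpa using this⟩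
      map_add' := fun g h => rfl
      map_smul' := fun c g => rfl }
  have hT : ∀ (u : List X) (g : W) (w : List X), ((u.map T).prod g).1 w = g.1 (w ++ u) := by
    intro u
    induction u with
    | nil => intro g w; simp
    | cons x u ih =>
      intro g w
      rw [List.map_cons, List.prod_cons, Module.End.mul_apply]
      show ((u.map T).prod g).1 (w ++ [x]) = _
      rw [ih]; simp
  obtain ⟨φ, hφ⟩ := P.exists_algHom T
    (fun u v h => by
      ext g w
      rw [hT, hT]
      simpa using g.2.1 w [] u v h)
    (fun z h => by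
      ext g w
      rw [hT]
      simpa using g.2.2 w [] z h)
  refine ⟨{ toFun := fun a => (φ a ⟨f, hf⟩).1 []
            map_add' := fun a b => by rw [map_add]; rfl
            map_smul' := fun c a => by rw [map_smul]; rfl }, fun w => ?_⟩
  show (φ (P.word w) ⟨f, hf⟩).1 [] = f w
  rw [hφ, hT]; simp

/-- The augmentation exists for relations of positive degree. -/
theorem exists_eps (h : P.Homog) :
    ∃ ε : Alg P →ₐ[F2] F2, ∀ x, ε (P.word [x]) = 0 := by
  have hz : ∀ u : List X, u ≠ [] → (u.map fun _ => (0 : F2)).prod = 0 := by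
    intro u hu
    cases u with
    | nil => exact absurd rfl hu
    | cons x u => simp
  obtain ⟨φ, hφ⟩ := P.exists_algHom (B := F2) (fun _ => 0)
    (fun u v e => by
      obtain ⟨h1, h2⟩ := h.1 u v e
      have h3 : v ≠ [] := by
        rintro rfl
        exact h2 (List.length_eq_zero_iff.mp h1)
      rw [hz u h2, hz v h3])
    (fun z e => hz z (h.2 z e))
  exact ⟨φ, fun x => by rw [hφ]; simp⟩

end Pres

/-- The data used by the group-theoretic part: a graded algebra generated by `gen`, with
augmentation `eps`, the twisted maps `x ↦ c ⊗ x`, and nil matrices over the augmentation ideal. -/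
structure GrData (X : Type) (A : Type) [Ring A] [Algebra F2 A] where
  gen : X → A
  eps : A →+* F2
  eps_gen : ∀ x, eps (gen x) = 0
  ind : ∀ p : A → Prop, p 0 → (∀ w : List X, p (w.map gen).prod) →
    (∀ a b, p a → p b → p (a + b)) → ∀ a, p a
  psi : ∀ (q : ℕ) (c : Matrix (Fin q) (Fin q) F2), ∃ ψ : A →+* Matrix (Fin q) (Fin q) A,
    ∀ x, ψ (gen x) = c.map fun t => t • gen x
  nil : ∀ M : Matrix (Fin 5) (Fin 5) A, (∀ i j, eps (M i j) = 0) → IsNilpotent M

end Vale.Agent.P192Z
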