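import Vale.Agent.P192Z.Alg
import Vale.Agent.P192Z.Mach.Capelli

/-!
# P192: from the combinatorial properties of the relations to properties of the algebra
-/

namespace Vale.Agent.P192Z

open Polynomial

namespace Br

variable {X : Type}

theorem sum_pow_eq_wsum [Fintype X] {R : Type} [Semiring R] (f : X → R) (N : ℕ) :
    (∑ x, f x) ^ N = Cap.wsum N fun w => (w.map f).prod := by
  induction N with
  | zero => simp [Cap.wsum_zero]
  | succ N ih =>
    rw [pow_succ', ih, Cap.wsum_succ, Finset.sum_mul]
    refine Finset.sum_congr rfl fun x _ => ?_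
    simp only [Cap.wsum, Finset.mul_sum, List.map_cons, List.prod_cons]

variable {A : Type} [Ring A] [Algebra F2 A]

/-- a multiplicative function on words -/
structure Wd (X A : Type) [Ring A] where
  word : List X → A
  word_nil : word [] = 1
  word_append : ∀ u v, word (u ++ v) = word u * word v

omit [Algebra F2 A] in
theorem Wd.word_cons (P : Wd X A) (x : X) (v : List X) :
    P.word (x :: v) = P.word [x] * P.word v := P.word_append [x] v

/-- nilpotency of pencils in dual form -/
def Wd.NIL [Fintype X] (P : Wd X A) : Prop :=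
  ∀ (ι : Type) [Fintype ι] [DecidableEq ι] (ρ : X → Matrix ι ι (Polynomial F2)),
    ∃ N : ℕ, ∀ φ : A →ₗ[F2] F2,
      ∑ w : Fin N → X, φ (P.word (List.ofFn w)) • (List.ofFn (ρ ∘ w)).prod = 0

variable (P : Wd X A)

/-- the central embedding of the polynomials over the prime field -/
noncomputable def emb (_ : Wd X A) : F2[X] →+* A[X] := mapRingHom (algebraMap F2 A)

theorem emb_comm (c : F2[X]) (z : A[X]) : emb P c * z = z * emb P c := by
  ext n
  rw [coeff_mul, coeff_mul, ← Finset.Nat.sum_antidiagonal_swap]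
  refine Finset.sum_congr rfl fun p _ => ?_
  simp [emb, Algebra.commutes]

/-- the pencil attached to a family of matrices -/
noncomputable def term {ι : Type} (w : List X) (r : Matrix ι ι F2[X]) :
    Matrix ι ι A[X] :=
  r.map fun c => C (P.word w) * emb P c

theorem term_mul {ι : Type} [Fintype ι] (u v : List X) (r s : Matrix ι ι F2[X]) :
    term P u r * term P v s = term P (u ++ v) (r * s) := by
  ext1 i j
  simp only [term, Matrix.mul_apply, Matrix.map_apply, map_sum, Finset.mul_sum, P.word_append,
    map_mul]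
  refine Finset.sum_congr rfl fun k _ => ?_
  rw [mul_assoc, ← mul_assoc (emb P _), emb_comm P (r i k) (C _)]
  simp only [mul_assoc]

theorem prod_term {ι : Type} [Fintype ι] [DecidableEq ι] (ρ : X → Matrix ι ι F2[X])
    (w : List X) : (w.map fun x => term P [x] (ρ x)).prod = term P w (w.map ρ).prod := by
  induction w with
  | nil =>
    ext1 i j
    simp only [term, List.map_nil, List.prod_nil, P.word_nil, map_one, one_mul, Matrix.map_apply,
      Matrix.one_apply]
    split_ifs <;> simp
  | cons x w ih => rw [List.map_cons, List.prod_cons, ih, term_mul]; simp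

theorem pencil_nil [Fintype X] (hn : P.NIL) {ι : Type} [Fintype ι] [DecidableEq ι]
    (ρ : X → Matrix ι ι F2[X]) : IsNilpotent (∑ x, term P [x] (ρ x)) := by
  obtain ⟨N, hN⟩ := hn ι ρ
  refine ⟨N, ?_⟩
  rw [sum_pow_eq_wsum]
  simp only [prod_term, Cap.wsum]
  ext i j n
  rw [Matrix.sum_apply, finsetSum_coeff, Matrix.zero_apply, coeff_zero]
  refine (Module.forall_dual_apply_eq_zero_iff F2 _).1 fun φ => ?_
  have h1 := hN φ
  have h2 := congrArg (fun m : Matrix ι ι F2[X] => (m i j).coeff n) h1
  simp only [Matrix.sum_apply, finsetSum_coeff, Matrix.smul_apply, coeff_smul, smul_eq_mul,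
    Matrix.zero_apply, coeff_zero] at h2
  rw [map_sum, ← h2]
  refine Finset.sum_congr rfl fun w _ => ?_
  simp only [term, Matrix.map_apply, coeff_C_mul, emb, coe_mapRingHom, coeff_map, List.map_ofFn]
  rw [← Algebra.commutes, ← Algebra.smul_def, map_smul, smul_eq_mul, mul_comm]

variable [Fintype X]

/-- sums of nonempty words of length at most `d` with polynomial coefficients -/
def Dg : ℕ → A[X] → Prop
  | 0, z => z = 0
  | d + 1, z => ∃ (c : X → F2[X]) (y : X → A[X]), (∀ x, Dg d (y x)) ∧
      z = ∑ x, C (P.word [x]) * (emb P (c x) + y x)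

theorem Dg_zero (d : ℕ) : Dg P d 0 := by
  induction d with
  | zero => rfl
  | succ d ih => exact ⟨0, 0, fun _ => ih, by simp⟩

theorem Dg_add {d : ℕ} {z z' : A[X]} (h : Dg P d z) (h' : Dg P d z') :
    Dg P d (z + z') := by
  induction d generalizing z z' with
  | zero =>
    rw [show z = 0 from h, show z' = 0 from h', add_zero]
    rfl
  | succ d ih =>
    obtain ⟨c, y, hy, rfl⟩ := h
    obtain ⟨c', y', hy', rfl⟩ := h'
    refine ⟨c + c', y + y', fun x => ih (hy x) (hy' x), ?_⟩
    rw [← Finset.sum_add_distrib]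
    refine Finset.sum_congr rfl fun x _ => ?_
    simp only [Pi.add_apply, map_add, mul_add]
    abel

theorem Dg_succ {d : ℕ} {z : A[X]} (h : Dg P d z) : Dg P (d + 1) z := by
  induction d generalizing z with
  | zero =>
    rw [show z = 0 from h]
    exact Dg_zero P _
  | succ d ih =>
    obtain ⟨c, y, hy, rfl⟩ := h
    exact ⟨c, y, fun x => ih (hy x), rfl⟩

theorem Dg_mono {d d' : ℕ} (hd : d ≤ d') {z : A[X]} (h : Dg P d z) : Dg P d' z := by
  induction hd with
  | refl => exact h
  | step _ ih => exact Dg_succ P ih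

theorem Dg_lin (d : ℕ) (c : X → F2[X]) : Dg P (d + 1) (∑ x, C (P.word [x]) * emb P (c x)) :=
  ⟨c, 0, fun _ => Dg_zero P d, by simp⟩

theorem Dg_gen_mul [DecidableEq X] {d : ℕ} (x : X) (c : F2[X]) {y : A[X]}
    (hy : Dg P d y) : Dg P (d + 1) (C (P.word [x]) * (emb P c + y)) := by
  refine ⟨Pi.single x c, Pi.single x y, fun x' => ?_, ?_⟩
  · by_cases h : x' = x
    · subst h
      simpa using hy
    · rw [Pi.single_eq_of_ne h]
      exact Dg_zero P d
  · rw [Finset.sum_eq_single x]
    · simp
    · intro x' _ h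
      simp [Pi.single_eq_of_ne h]
    · simp

theorem Dg_word (x : X) (w : List X) :
    Dg P (w.length + 1) (monomial 1 (P.word (x :: w))) := by
  classical
  induction w generalizing x with
  | nil =>
    have := Dg_gen_mul P (d := 0) x Polynomial.X (y := 0) rfl
    rw [add_zero, emb, coe_mapRingHom, map_X, C_mul_X_eq_monomial] at this
    exact this
  | cons x' w ih =>
    have := Dg_gen_mul P x 0 (ih x')
    rw [map_zero, zero_add, C_mul_monomial, ← P.word_cons] at this
    exact this

theorem exists_Dg (ε : A →ₐ[F2] F2) (hε : ∀ x, ε (P.word [x]) = 0)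
    (ind : ∀ p : A → Prop, p 0 → (∀ w, p (P.word w)) → (∀ a b, p a → p b → p (a + b)) →
      ∀ a, p a) (a : A) :
    ∃ d, Dg P d (monomial 1 (a - algebraMap F2 A (ε a))) := by
  refine ind (fun a => ∃ d, Dg P d (monomial 1 (a - algebraMap F2 A (ε a)))) ⟨0, by simp [Dg]⟩
    (fun w => ?_) (fun a b ha hb => ?_) a
  · cases w with
    | nil => exact ⟨0, by simp [Dg, P.word_nil]⟩
    | cons x w =>
      refine ⟨w.length + 1, ?_⟩
      have : ε (P.word (x :: w)) = 0 := by rw [P.word_cons, map_mul, hε, zero_mul]
      rw [this, map_zero, sub_zero]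
      exact Dg_word P x w
  · obtain ⟨d, hd⟩ := ha
    obtain ⟨d', hd'⟩ := hb
    refine ⟨max d d', ?_⟩
    have := Dg_add P (Dg_mono P (le_max_left d d') hd) (Dg_mono P (le_max_right d d') hd')
    rw [← map_add] at this
    convert this using 2
    rw [map_add, map_add]
    abel

theorem right_inv (hn : P.NIL) (d : ℕ) : ∀ (ι : Type) [Fintype ι] [DecidableEq ι]
    (Z : Matrix ι ι A[X]), (∀ i j, Dg P (d + 1) (Z i j)) → ∃ Q, (1 - Z) * Q = 1 := by
  classical
  induction d with
  | zero =>
    intro ι _ _ Z hZ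
    choose c y hy hc using hZ
    have h1 : Z = ∑ x, term P [x] (Matrix.of fun i j => c i j x) := by
      ext1 i j
      rw [hc i j, Matrix.sum_apply]
      refine Finset.sum_congr rfl fun x _ => ?_
      rw [show y i j x = 0 from hy i j x, add_zero]
      rfl
    obtain ⟨u, hu⟩ := (h1 ▸ pencil_nil P hn _ : IsNilpotent Z).isUnit_one_sub
    exact ⟨↑u⁻¹, by rw [← hu, Units.mul_inv]⟩
  | succ d ih =>
    intro ι _ _ Z hZ
    choose c y hy hc using hZ
    let Z1 : Matrix ι ι A[X] := Matrix.of fun i j => ∑ x, C (P.word [x]) * emb P (c i j x)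
    let a : Matrix ι (X × ι) A[X] :=
      Matrix.of fun i p => if i = p.2 then C (P.word [p.1]) else 0
    let b : Matrix (X × ι) ι A[X] := Matrix.of fun p j => y p.2 j p.1
    have hZ : Z = Z1 + a * b := by
      ext1 i j
      rw [hc i j, Matrix.add_apply, Matrix.mul_apply, Fintype.sum_prod_type]
      simp only [Z1, a, b, Matrix.of_apply, ite_mul, zero_mul, Finset.sum_ite_eq, Finset.mem_univ,
        if_true, mul_add, Finset.sum_add_distrib]
    obtain ⟨Q, hQ⟩ := ih (ι ⊕ X × ι) (Matrix.fromBlocks Z1 a b 0) (by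
      rintro (i | p) (j | p')
      · exact Dg_lin P d _
      · simp only [Matrix.fromBlocks_apply₁₂, a, Matrix.of_apply]
        split_ifs
        · have := Dg_gen_mul P (d := d) p'.1 1 (Dg_zero P d)
          rwa [map_one, add_zero, mul_one] at this
        · exact Dg_zero P _
      · exact hy _ _ _
      · exact Dg_zero P _)
    rw [← Matrix.fromBlocks_one, ← Matrix.fromBlocks_toBlocks Q, sub_eq_add_neg,
      Matrix.fromBlocks_neg, Matrix.fromBlocks_add, Matrix.fromBlocks_multiply,
      Matrix.fromBlocks_inj] at hQ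
    obtain ⟨h1, -, h3, -⟩ := hQ
    refine ⟨Q.toBlocks₁₁, ?_⟩
    have h4 : Q.toBlocks₂₁ = b * Q.toBlocks₁₁ := by
      rw [zero_add, neg_zero, add_zero, Matrix.one_mul, Matrix.neg_mul, neg_add_eq_zero] at h3
      exact h3.symm
    rw [h4, zero_add, Matrix.neg_mul, ← Matrix.mul_assoc] at h1
    rw [hZ]
    refine Eq.trans ?_ h1
    generalize a * b = ab
    noncomm_ring

omit [Fintype X] in
theorem nil_of_right_inv {R ι : Type} [Ring R] [Fintype ι] [DecidableEq ι] (M : Matrix ι ι R)
    (Q : Matrix ι ι R[X]) (h : (1 - M.map (monomial 1)) * Q = 1) : IsNilpotent M := by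
  have h0 : Q = 1 + M.map (monomial 1) * Q := by
    rw [Matrix.sub_mul, Matrix.one_mul] at h
    rw [← h]
    abel
  have h1 : ∀ n, M ^ n = Q.map fun z => z.coeff n := by
    intro n
    induction n with
    | zero =>
      ext i j
      have h2 := congrArg (fun m : Matrix ι ι R[X] => (m i j).coeff 0) h0
      simp only [Matrix.map_apply, Matrix.add_apply, Matrix.mul_apply, coeff_add,
        finsetSum_coeff, mul_coeff_zero, coeff_monomial, Matrix.one_apply] at h2
      rw [pow_zero, Matrix.map_apply, h2, Matrix.one_apply]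
      by_cases hij : i = j <;> simp [hij]
    | succ n ih =>
      ext i j
      have h2 := congrArg (fun m : Matrix ι ι R[X] => (m i j).coeff (n + 1)) h0
      simp only [Matrix.map_apply, Matrix.add_apply, Matrix.mul_apply, coeff_add,
        finsetSum_coeff, coeff_monomial_mul, Matrix.one_apply] at h2
      rw [pow_succ', ih, Matrix.map_apply, h2, Matrix.mul_apply]
      split_ifs <;> simp [coeff_one]
  refine ⟨(Finset.univ.sup fun p : ι × ι => (Q p.1 p.2).natDegree) + 1, ?_⟩
  rw [h1]
  ext i j
  refine coeff_eq_zero_of_natDegree_lt (Nat.lt_succ_of_le ?_)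
  exact Finset.le_sup (f := fun p : ι × ι => (Q p.1 p.2).natDegree) (Finset.mem_univ (i, j))

theorem matrix_nil (hn : P.NIL) (ε : A →ₐ[F2] F2) (hε : ∀ x, ε (P.word [x]) = 0)
    (ind : ∀ p : A → Prop, p 0 → (∀ w, p (P.word w)) → (∀ a b, p a → p b → p (a + b)) →
      ∀ a, p a) {ι : Type} [Fintype ι] [DecidableEq ι]
    (M : Matrix ι ι A) (hM : ∀ i j, ε (M i j) = 0) : IsNilpotent M := by
  choose d hd using fun p : ι × ι => exists_Dg P ε hε ind (M p.1 p.2)
  obtain ⟨Q, hQ⟩ := right_inv P hn (Finset.univ.sup d) ι (M.map (monomial 1)) fun i j => by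
    have h1 := hd (i, j)
    rw [hM, map_zero, sub_zero] at h1
    exact Dg_mono P ((Finset.le_sup (Finset.mem_univ (i, j))).trans (Nat.le_succ _)) h1
  exact nil_of_right_inv M Q hQ

end Br

/-- Matrices over the augmentation ideal are nilpotent. -/
theorem matrix_nil {X : Type} [Fintype X] (P : Pres X) (hn : P.NIL) (ε : Alg P →ₐ[F2] F2)
    (hε : ∀ x, ε (P.word [x]) = 0) {ι : Type} [Fintype ι] [DecidableEq ι]
    (M : Matrix ι ι (Alg P)) (hM : ∀ i j, ε (M i j) = 0) : IsNilpotent M := by
  refine Br.matrix_nil ⟨P.word, P.word_nil, P.word_append⟩ (fun ι _ _ ρ => ?_) ε hε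
    (fun p h0 hw hadd a => P.induction h0 hw hadd a) M hM
  obtain ⟨N, hN⟩ := hn ι ρ
  exact ⟨N, fun φ => hN (fun w => φ (P.word w)) (P.inv_word.comp φ (map_zero φ))⟩

/-- The grading map `x ↦ x t`. -/
theorem exists_theta {X : Type} (P : Pres X) (hh : P.Homog) :
    ∃ θ : Alg P →ₐ[F2] (Alg P)[X], ∀ w, θ (P.word w) = monomial w.length (P.word w) := by
  have h1 : ∀ w : List X, (w.map fun x => monomial 1 (P.word [x])).prod =
      monomial w.length (P.word w) := by
    intro w
    induction w with
    | nil => simp [P.word_nil]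
    | cons x w ih =>
      rw [List.map_cons, List.prod_cons, ih, monomial_mul_monomial, P.word_cons x w,
        List.length_cons, Nat.add_comm]
  obtain ⟨θ, hθ⟩ := P.exists_algHom (B := (Alg P)[X]) (fun x => monomial 1 (P.word [x]))
    (fun u v h => by rw [h1, h1, P.word_eq h, (hh.1 u v h).1])
    (fun z h => by rw [h1, P.word_zero h, map_zero])
  exact ⟨θ, fun w => by rw [hθ, h1]⟩

theorem exists_grData {X : Type} [Fintype X] (P : Pres X) (hh : P.Homog) (hn : P.NIL) :
    Nonempty (GrData X (Alg P)) := by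
  obtain ⟨ε, hε⟩ := P.exists_eps hh
  refine ⟨⟨fun x => P.word [x], ε.toRingHom, hε, fun p h0 hw hadd a => ?_, fun q c => ?_,
    fun M hM => matrix_nil P hn ε hε M hM⟩⟩
  · exact P.induction h0 (fun w => by rw [P.word_eq_prod]; exact hw w) hadd a
  · have h1 : ∀ w : List X, (w.map fun x => c.map fun t => t • P.word [x]).prod =
        (c ^ w.length).map fun t => t • P.word w := by
      intro w
      induction w with
      | nil =>
        ext i j
        simp only [List.map_nil, List.prod_nil, List.length_nil, pow_zero, P.word_nil,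
          Matrix.map_apply, Matrix.one_apply]
        split_ifs <;> simp
      | cons x w ih =>
        rw [List.map_cons, List.prod_cons, ih, List.length_cons, pow_succ', P.word_cons x w]
        ext i j
        simp only [Matrix.mul_apply, Matrix.map_apply, Finset.sum_smul, smul_mul_smul_comm]
    obtain ⟨φ, hφ⟩ := P.exists_algHom (B := Matrix (Fin q) (Fin q) (Alg P))
      (fun x => c.map fun t => t • P.word [x])
      (fun u v h => by rw [h1, h1, P.word_eq h, (hh.1 u v h).1])
      (fun z h => by
        rw [h1, P.word_zero h]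
        ext i j
        simp)
    exact ⟨φ.toRingHom, fun x => by simpa using hφ [x]⟩

theorem infinite_alg {X : Type} (P : Pres X) (hh : P.Homog) (hi : P.INF) : Infinite (Alg P) := by
  classical
  let S : Set ℕ := {n | ∃ (w : List X) (lam : List X → F2), P.Inv lam ∧ w.length = n ∧ lam w = 1}
  have hS : S.Infinite := Set.infinite_of_forall_exists_gt fun n => by
    obtain ⟨w, lam, h1, h2, h3⟩ := hi (n + 1)
    exact ⟨w.length, ⟨w, lam, h1, rfl, h3⟩, h2⟩
  have := hS.to_subtype
  choose w lam h1 h2 h3 using fun n : S => n.2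
  refine Infinite.of_injective (fun n : S => P.word (w n)) fun n m hnm => ?_
  by_contra hne
  have hinv : P.Inv fun v => if v.length = n then lam n v else 0 := by
    refine ⟨fun a b u v e => ?_, fun a b z e => ?_⟩
    · simp only [List.length_append, (hh.1 u v e).1, (h1 n).1 a b u v e]
    · simp only [(h1 n).2 a b z e, ite_self]
  obtain ⟨F, hF⟩ := P.exists_lin _ hinv
  have h4 := congrArg F hnm
  rw [hF, hF, if_pos (h2 n), if_neg (fun h => hne (Subtype.ext (h.symm.trans (h2 m)))), h3] at h4
  exact one_ne_zero h4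

end Vale.Agent.P192Z
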