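import Vale.Agent.P192Z.Bridge

/-!
# P192: further exports for the torsion argument
-/

namespace Vale.Agent.P192Z

theorem nil_matrix {X : Type} [Fintype X] (P : Pres X) (hn : P.NIL) (ε : Alg P →ₐ[F2] F2)
    (hε : ∀ x, ε (P.word [x]) = 0) (n : ℕ) (M : Matrix (Fin n) (Fin n) (Alg P))
    (h : ∀ i j, ε (M i j) = 0) : IsNilpotent M :=
  matrix_nil P hn ε hε M h

theorem exists_theta' {X : Type} (P : Pres X) (hh : P.Homog) :
    ∃ θ : Alg P →+* Polynomial (Alg P),
      ∀ x, θ (P.word [x]) = Polynomial.monomial 1 (P.word [x]) := by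
  obtain ⟨θ, hθ⟩ := exists_theta P hh
  exact ⟨θ.toRingHom, fun x => hθ [x]⟩

theorem closure_gen {X : Type} (P : Pres X) :
    Subring.closure (Set.range fun x => P.word [x]) = ⊤ := by
  rw [eq_top_iff]
  intro a ha
  clear ha
  refine P.induction (p := fun a => a ∈ Subring.closure (Set.range fun x => P.word [x]))
    (zero_mem _) (fun w => ?_) (fun a b ha hb => add_mem ha hb) a
  rw [P.word_eq_prod]
  refine list_prod_mem fun z hz => ?_
  obtain ⟨x, -, rfl⟩ := List.mem_map.1 hz
  exact Subring.subset_closure ⟨x, rfl⟩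

end Vale.Agent.P192Z
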