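import Vale.Agent.P192Z.Bridge2
import Vale.Agent.P192Z.Grp.FP
import Vale.Agent.P192Z.Tor.Main

/-!
# P192: from the algebra to an infinite finitely presented periodic group
-/

namespace Vale.Agent.P192Z

open scoped commutatorElement

theorem exists_group {X : Type} [Fintype X] (P : Pres X) (h1 : P.eqs.Finite)
    (h2 : P.zeros.Finite) (hh : P.Homog) (hi : P.INF) (hn : P.NIL) :
    ∃ (G : Type) (_ : Group G), Group.IsFinitelyPresented G ∧ (∀ g : G, IsOfFinOrder g) ∧
      Infinite G := by
  let ok : Fin 5 → Fin 5 → Alg P → Prop := fun i j _ => i ≠ j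
  have hc : Closed ok := ⟨fun h => h, fun h => h, fun h _ => h, fun _ _ h => h⟩
  obtain ⟨ε, hε⟩ := P.exists_eps hh
  obtain ⟨θ, hθ⟩ := exists_theta' P hh
  refine ⟨St ok, inferInstance, st_fp P h1 h2 ok fun _ _ _ => Iff.rfl, ?_, ?_⟩
  · refine Tor.torsion_of_steinberg ε.toRingHom (Set.range fun x => P.word [x]) (closure_gen P)
      (by rintro _ ⟨x, rfl⟩; exact hε x) θ (by rintro _ ⟨x, rfl⟩; exact hθ x)
      (nil_matrix P hn ε hε) (by simp) (St.x ok) (fun i j h a b => (St.isSt ok).add h h)
      (fun i j k l h h' hjk hil a b => ((St.isSt ok).comm h h' hjk hil).eq)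
      (fun i j k h h' hik a b => ?_) ?_ (phi hc) fun i j a h => phi_x hc h
    · rw [← (St.isSt ok).mul (a := a) (b := b) h h' hik, commutatorElement_def]
      group
    · rw [eq_top_iff]
      intro g _
      refine St.mem_of_gen _ (fun i j a h => Subgroup.subset_closure ?_) g
      exact ⟨i, j, a, h, rfl⟩
  · have := infinite_alg P hh hi
    refine Infinite.of_injective (fun a : Alg P => St.x ok 0 1 a) fun a b hab => ?_
    have h01 : ∀ a, ok 0 1 a := fun _ => by simp [ok]
    have h : phi hc (St.x ok 0 1 a) 0 1 = phi hc (St.x ok 0 1 b) 0 1 :=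
      congrArg (fun g => phi hc g 0 1) hab
    rw [phi_x hc (h01 a), phi_x hc (h01 b)] at h
    simpa using h

end Vale.Agent.P192Z
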